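import Vale.Agent.P211.Local.Calc

/-!
# P211, module B: convolution with a smoothing kernel on `ℝ⁴`
-/

open MeasureTheory Metric Function
open scoped ContDiff Convolution Topology

namespace Vale.Agent.P211.Mollify

noncomputable section

/-- A continuous function with compact support. -/
def Cc (f : Euc4 → ℝ) : Prop := Continuous f ∧ HasCompactSupport f

/-- A smooth function with compact support. -/
def Cs (f : Euc4 → ℝ) : Prop := ContDiff ℝ ∞ f ∧ HasCompactSupport f

theorem Cs.cc {f : Euc4 → ℝ} (h : Cs f) : Cc f := ⟨h.1.continuous, h.2⟩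

theorem Cc.integrable {f : Euc4 → ℝ} (h : Cc f) : Integrable f :=
  h.1.integrable_of_hasCompactSupport h.2

theorem Cc.add {f g : Euc4 → ℝ} (hf : Cc f) (hg : Cc g) : Cc fun x => f x + g x :=
  ⟨hf.1.add hg.1, hf.2.add hg.2⟩

theorem Cc.sub {f g : Euc4 → ℝ} (hf : Cc f) (hg : Cc g) : Cc fun x => f x - g x :=
  ⟨hf.1.sub hg.1, hf.2.comp₂_left hg.2 (m := fun a b => a - b) (sub_zero 0)⟩

theorem Cc.mul {f g : Euc4 → ℝ} (hf : Continuous f) (hg : Cc g) : Cc fun x => f x * g x :=
  ⟨hf.mul hg.1, hg.2.mul_left⟩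

theorem Cc.abs {f : Euc4 → ℝ} (hf : Cc f) : Cc fun x => |f x| :=
  ⟨hf.1.abs, hf.2.comp_left (g := fun t => |t|) abs_zero⟩

theorem Cc.sq {f : Euc4 → ℝ} (hf : Cc f) : Cc fun x => f x ^ 2 :=
  ⟨hf.1.pow 2, hf.2.comp_left (g := fun t : ℝ => t ^ 2) (by norm_num)⟩

theorem Cs.sub {f g : Euc4 → ℝ} (hf : Cs f) (hg : Cs g) : Cs fun x => f x - g x :=
  ⟨hf.1.sub hg.1, (hf.cc.sub hg.cc).2⟩

theorem Cs.mul {f g : Euc4 → ℝ} (hf : ContDiff ℝ ∞ f) (hg : Cs g) : Cs fun x => f x * g x :=
  ⟨hf.mul hg.1, hg.2.mul_left⟩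

theorem pd_contDiff {f : Euc4 → ℝ} (hf : ContDiff ℝ ∞ f) (i : Fin 4) :
    ContDiff ℝ ∞ fun y => pd f i y :=
  (hf.fderiv_right (m := ∞) (by simp)).clm_apply contDiff_const

theorem Cs.pd {f : Euc4 → ℝ} (hf : Cs f) (i : Fin 4) : Cs fun y => Vale.Agent.P211.pd f i y :=
  ⟨pd_contDiff hf.1 i, hf.2.fderiv_apply ℝ _⟩

theorem Cs.differentiable {f : Euc4 → ℝ} (hf : Cs f) : Differentiable ℝ f :=
  hf.1.differentiable (by simp)

/-- Convolution. -/
def conv (k f : Euc4 → ℝ) : Euc4 → ℝ := k ⋆[ContinuousLinearMap.mul ℝ ℝ, volume] f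

theorem conv_apply (k f : Euc4 → ℝ) (x : Euc4) : conv k f x = ∫ y, k y * f (x - y) := rfl

theorem conv_apply_swap (k f : Euc4 → ℝ) (x : Euc4) : conv k f x = ∫ y, k (x - y) * f y := by
  rw [conv_apply]
  conv_lhs => rw [← integral_sub_left_eq_self (fun y => k y * f (x - y)) volume x]
  simp

theorem integrable_shift {k f : Euc4 → ℝ} (hk : Cc k) (hf : Continuous f) (x : Euc4) :
    Integrable fun y => k y * f (x - y) :=
  (hk.1.mul (hf.comp (continuous_const.sub continuous_id))).integrable_of_hasCompactSupport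
    hk.2.mul_right

theorem cc_conv {k f : Euc4 → ℝ} (hk : Cc k) (hf : Cc f) : Cc (conv k f) :=
  ⟨hf.2.continuous_convolution_right _ hk.1.locallyIntegrable hf.1,
    hk.2.convolution _ hf.2⟩

theorem cs_conv {k f : Euc4 → ℝ} (hk : Cc k) (hf : Cs f) : Cs (conv k f) :=
  ⟨hf.2.contDiff_convolution_right _ hk.1.locallyIntegrable hf.1, hk.2.convolution _ hf.2⟩

/-- The derivative falls on the second factor. -/
theorem pd_conv {k f : Euc4 → ℝ} (hk : Cc k) (hf : Cs f) (i : Fin 4) (x : Euc4) :
    pd (conv k f) i x = conv k (fun y => pd f i y) x := by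
  have h1 : ContDiff ℝ 1 f := hf.1.of_le (by simp)
  rw [pd, conv, (hf.2.hasFDerivAt_convolution_right _ hk.1.locallyIntegrable h1 x).fderiv,
    convolution_precompR_apply _ hk.1.locallyIntegrable (hf.2.fderiv ℝ)
      (h1.continuous_fderiv (by simp))]
  rfl

theorem conv_comm (k f : Euc4 → ℝ) : conv k f = conv f k := by
  funext x
  rw [conv_apply_swap, conv_apply]
  exact integral_congr_ae (Filter.Eventually.of_forall fun y => mul_comm _ _)

/-- The derivative may be moved to the kernel. -/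
theorem conv_pd {k f : Euc4 → ℝ} (hk : Cs k) (hf : Cs f) (i : Fin 4) (x : Euc4) :
    conv k (fun y => pd f i y) x = conv (fun y => pd k i y) f x := by
  rw [← pd_conv hk.cc hf, conv_comm k f, pd_conv hf.cc hk, conv_comm]

theorem conv_sub {k f g : Euc4 → ℝ} (hk : Cc k) (hf : Continuous f) (hg : Continuous g) (x : Euc4) :
    conv k (fun y => f y - g y) x = conv k f x - conv k g x := by
  simp only [conv_apply, mul_sub]
  exact integral_sub (integrable_shift hk hf x) (integrable_shift hk hg x)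

theorem conv_sum {ι : Type*} (s : Finset ι) {k : Euc4 → ℝ} {f : ι → Euc4 → ℝ} (hk : Cc k)
    (hf : ∀ t ∈ s, Continuous (f t)) (x : Euc4) :
    conv k (fun y => ∑ t ∈ s, f t y) x = ∑ t ∈ s, conv k (f t) x := by
  simp only [conv_apply, Finset.mul_sum]
  exact integral_finsetSum s fun t ht => integrable_shift hk (hf t ht) x

theorem abs_conv_le {k f : Euc4 → ℝ} (x : Euc4) :
    |conv k f x| ≤ conv (fun y => |k y|) (fun y => |f y|) x := by
  simp only [conv_apply]
  refine (abs_integral_le_integral_abs).trans_eq ?_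
  simp [abs_mul]

theorem conv_mono_left {k l f : Euc4 → ℝ} (hk : Cc k) (hl : Cc l) (hf : Continuous f)
    (h0 : ∀ y, 0 ≤ f y) (h : ∀ y, k y ≤ l y) (x : Euc4) : conv k f x ≤ conv l f x :=
  integral_mono (integrable_shift hk hf x) (integrable_shift hl hf x)
    fun _ => mul_le_mul_of_nonneg_right (h _) (h0 _)

theorem integral_conv {k f : Euc4 → ℝ} (hk : Cc k) (hf : Cc f) :
    ∫ x, conv k f x = (∫ x, k x) * ∫ x, f x :=
  integral_convolution _ hk.integrable hf.integrable

/-- Young's inequality in mean square. -/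
theorem integral_conv_sq_le {k f : Euc4 → ℝ} (hk : Cc k) (hf : Cc f) :
    ∫ x, conv k f x ^ 2 ≤ (∫ x, |k x|) ^ 2 * ∫ x, f x ^ 2 := by
  set K := ∫ x, |k x|
  have hK : 0 ≤ K := integral_nonneg fun _ => abs_nonneg _
  have hp : ∀ x, conv k f x ^ 2 ≤ K * conv (fun y => |k y|) (fun y => f y ^ 2) x := by
    intro x
    set A := conv (fun y => |k y|) (fun y => |f y|) x
    set B := conv (fun y => |k y|) (fun y => f y ^ 2) x
    have hA : |conv k f x| ≤ A := abs_conv_le x
    have key : ∀ t : ℝ, 2 * t * A ≤ t ^ 2 * K + B := by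
      intro t
      have i1 := integrable_shift hk.abs hf.1.abs x
      have i2 := integrable_shift hk.abs hf.sq.1 x
      have i3 : Integrable fun y => |k y| := hk.abs.integrable
      have e : ∫ y, (t ^ 2 * |k y| + |k y| * f (x - y) ^ 2) = t ^ 2 * K + B := by
        rw [integral_add (i3.const_mul _) i2, integral_const_mul]; rfl
      rw [← e, show 2 * t * A = ∫ y, 2 * t * (|k y| * |f (x - y)|) by
        rw [integral_const_mul]; rfl]
      refine integral_mono (i1.const_mul _) ((i3.const_mul _).add i2) fun y => ?_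
      have := mul_nonneg (abs_nonneg (k y)) (sq_nonneg (t - |f (x - y)|))
      rw [← sq_abs (f (x - y))]
      linear_combination this
    have hA2 : A ^ 2 ≤ K * B := by
      rcases hK.eq_or_lt with h | h
      · rw [← h, zero_mul]
        have hA0 : A = 0 := by
          by_contra hne
          have := key ((B + 1) / (2 * A))
          rw [← h, mul_zero, zero_add, show 2 * ((B + 1) / (2 * A)) * A = B + 1 by field_simp]
            at this
          linarith
        simp [hA0]
      · have := key (A / K)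
        field_simp at this
        nlinarith
    calc conv k f x ^ 2 = |conv k f x| ^ 2 := (sq_abs _).symm
      _ ≤ A ^ 2 := pow_le_pow_left₀ (abs_nonneg _) hA 2
      _ ≤ K * B := hA2
  refine (integral_mono (cc_conv hk hf).sq.integrable
    ((cc_conv hk.abs hf.sq).integrable.const_mul K) hp).trans_eq ?_
  rw [integral_const_mul, integral_conv hk.abs hf.sq]
  ring

end

end Vale.Agent.P211.Mollify
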