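import Vale.Agent.P211.Analytic.Mollify.Conv

/-!
# P211, module B: the kernel family, approximation and the commutator
-/

open MeasureTheory Metric Function
open scoped ContDiff

namespace Vale.Agent.P211.Mollify

noncomputable section

/-- The fixed bump. -/
def bump : ContDiffBump (0 : Euc4) := ⟨1 / 2, 1, by norm_num, by norm_num⟩

/-- The kernel at scale `h`. -/
def ker (h : ℝ) (x : Euc4) : ℝ := (h ^ 4)⁻¹ * bump.normed volume (h⁻¹ • x)

variable {h : ℝ}

theorem ker_nonneg (hh : 0 < h) (x : Euc4) : 0 ≤ ker h x :=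
  mul_nonneg (by positivity) (bump.nonneg_normed _)

theorem support_ker (hh : 0 < h) : support (ker h) ⊆ ball (0 : Euc4) h := by
  intro x hx
  have h1 : h⁻¹ • x ∈ support (bump.normed volume) := by
    intro h0; exact hx (by simp [ker, h0])
  rw [bump.support_normed_eq, mem_ball_zero_iff, norm_smul, norm_inv, Real.norm_of_nonneg hh.le,
    inv_mul_lt_iff₀ hh] at h1
  simpa [bump] using h1

theorem cs_ker (hh : 0 < h) : Cs (ker h) :=
  ⟨contDiff_const.mul (bump.contDiff_normed.comp (contDiff_id.const_smul _)),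
    (bump.hasCompactSupport_normed.comp_smul (inv_ne_zero hh.ne')).mul_left⟩

theorem integral_scale (hh : 0 < h) (F : Euc4 → ℝ) :
    ∫ x, F (h⁻¹ • x) = h ^ 4 * ∫ x, F x := by
  rw [Measure.integral_comp_inv_smul, finrank_euclideanSpace_fin, smul_eq_mul,
    abs_of_nonneg (by positivity)]

theorem integral_ker (hh : 0 < h) : ∫ x, ker h x = 1 := by
  unfold ker
  rw [integral_const_mul, integral_scale hh, bump.integral_normed]
  field_simp

theorem integral_abs_ker (hh : 0 < h) : ∫ x, |ker h x| = 1 := by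
  simp_rw [abs_of_nonneg (ker_nonneg hh _), integral_ker hh]

theorem pd_ker (__hh : 0 < h) (i : Fin 4) (x : Euc4) :
    pd (ker h) i x = (h ^ 4)⁻¹ * (h⁻¹ * pd (bump.normed volume) i (h⁻¹ • x)) := by
  have hd : DifferentiableAt ℝ (bump.normed volume) (h⁻¹ • x) :=
    (bump.contDiff_normed (n := 1)).differentiable (by simp) _
  have H := ((hd.hasFDerivAt.comp x ((hasFDerivAt_id x).const_smul h⁻¹)).const_mul
    (h ^ 4)⁻¹).fderiv
  simp only [pd]
  unfold ker
  rw [show (fun y : Euc4 => (h ^ 4)⁻¹ * bump.normed volume (h⁻¹ • y)) = fun y =>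
    (h ^ 4)⁻¹ * (bump.normed volume ∘ HSMul.hSMul h⁻¹) y from rfl, H]
  simp

/-- The total mass of the derivative of the fixed kernel. -/
def kerC : ℝ := ∑ i : Fin 4, ∫ x, |pd (bump.normed volume) i x|

theorem kerC_nonneg : 0 ≤ kerC :=
  Finset.sum_nonneg fun _ _ => integral_nonneg fun _ => abs_nonneg _

theorem integral_abs_pd_ker (hh : 0 < h) (i : Fin 4) :
    h * ∫ x, |pd (ker h) i x| ≤ kerC := by
  simp_rw [pd_ker hh, abs_mul, abs_of_pos (inv_pos.2 (pow_pos hh 4)), abs_of_pos (inv_pos.2 hh)]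
  rw [integral_const_mul, integral_const_mul,
    integral_scale hh (fun x => |pd (bump.normed volume) i x|)]
  calc h * ((h ^ 4)⁻¹ * (h⁻¹ * (h ^ 4 * ∫ x, |pd (bump.normed volume) i x|)))
      = ∫ x, |pd (bump.normed volume) i x| := by field_simp
    _ ≤ kerC := Finset.single_le_sum (f := fun i => ∫ x, |pd (bump.normed volume) i x|)
        (fun _ _ => integral_nonneg fun _ => abs_nonneg _) (Finset.mem_univ i)

theorem pd_ker_eq_zero (hh : 0 < h) (i : Fin 4) {x : Euc4} (hx : h < ‖x‖) :
    pd (ker h) i x = 0 := by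
  have hx' : x ∉ closedBall (0 : Euc4) h := by simpa using not_le.2 hx
  have h1 : tsupport (ker h) ⊆ closedBall (0 : Euc4) h :=
    closure_minimal ((support_ker hh).trans ball_subset_closedBall) isClosed_closedBall
  simp [pd, fderiv_of_notMem_tsupport ℝ (fun hmem => hx' (h1 hmem))]

/-- The kernel average stays in any closed interval containing the nearby values. -/
theorem conv_ker_sub_le (hh : 0 < h) {f : Euc4 → ℝ} (hf : Continuous f) {x : Euc4} {c ε : ℝ}
    (hε : 0 ≤ ε) (hc : ∀ y ∈ ball x h, |f y - c| ≤ ε) : |conv (ker h) f x - c| ≤ ε :=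
  dist_convolution_le hε (support_ker hh) (ker_nonneg hh) (integral_ker hh)
    hf.aestronglyMeasurable hc

theorem conv_ker_mem (hh : 0 < h) {f : Euc4 → ℝ} (hf : Continuous f) {x : Euc4} {l u : ℝ}
    (hlu : l ≤ u) (hc : ∀ y ∈ ball x h, f y ∈ Set.Icc l u) :
    conv (ker h) f x ∈ Set.Icc l u := by
  have := conv_ker_sub_le hh hf (c := (l + u) / 2) (ε := (u - l) / 2) (by linarith)
    fun y hy => abs_le.2 ⟨by linarith [(hc y hy).1], by linarith [(hc y hy).2]⟩
  obtain ⟨a, b⟩ := abs_le.1 this
  exact ⟨by linarith, by linarith⟩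

/-- The kernel averages converge uniformly. -/
theorem conv_ker_tendsto {f : Euc4 → ℝ} (hf : Cc f) {ε : ℝ} (hε : 0 < ε) :
    ∃ h₀ > 0, ∀ h, 0 < h → h < h₀ → ∀ x, |conv (ker h) f x - f x| ≤ ε := by
  obtain ⟨δ, hδ, hu⟩ := uniformContinuous_iff.1 (hf.2.uniformContinuous_of_continuous hf.1) ε hε
  refine ⟨δ, hδ, fun h hh hlt x => conv_ker_sub_le hh hf.1 hε.le fun y hy => ?_⟩
  exact (hu (lt_trans (mem_ball.1 hy) hlt)).le

/-- The commutator of smoothing with `∂ᵢ a ∂ⱼ`. -/
def comm (h : ℝ) (a : Euc4 → ℝ) (i j : Fin 4) (f : Euc4 → ℝ) (x : Euc4) : ℝ :=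
  pd (fun y => a y * pd (conv (ker h) f) j y) i x -
    conv (ker h) (fun y => pd (fun z => a z * pd f j z) i y) x

theorem comm_sub (hh : 0 < h) {a f g : Euc4 → ℝ} (ha : Cs a) (hf : Cs f) (hg : Cs g)
    (i j : Fin 4) (x : Euc4) :
    comm h a i j (fun y => f y - g y) x = comm h a i j f x - comm h a i j g x := by
  have hk := (cs_ker hh).cc
  have e1 : ∀ y, pd (conv (ker h) fun z => f z - g z) j y =
      pd (conv (ker h) f) j y - pd (conv (ker h) g) j y := fun y => by
    rw [pd_conv hk (hf.sub hg), pd_conv hk hf, pd_conv hk hg,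
      ← conv_sub hk (hf.pd j).1.continuous (hg.pd j).1.continuous]
    congr 1; funext z; exact Local.pd_sub (hf.differentiable z) (hg.differentiable z) j
  have df := (Cs.mul ha.1 ((cs_conv hk hf).pd j)).differentiable x
  have dg := (Cs.mul ha.1 ((cs_conv hk hg).pd j)).differentiable x
  have cf := Cs.mul ha.1 (hf.pd j)
  have cg := Cs.mul ha.1 (hg.pd j)
  have e2 : (fun y => pd (fun z => a z * pd (fun w => f w - g w) j z) i y) = fun y =>
      pd (fun z => a z * pd f j z) i y - pd (fun z => a z * pd g j z) i y := by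
    funext y
    rw [← Local.pd_sub (cf.differentiable y) (cg.differentiable y)]
    congr 1; funext z; rw [Local.pd_sub (hf.differentiable z) (hg.differentiable z)]; ring
  simp only [comm, e1, mul_sub]
  rw [Local.pd_sub df dg, e2, conv_sub hk (cf.pd i).1.continuous (cg.pd i).1.continuous]
  ring

/-- The kernel which bounds the commutator. -/
def comKer (h : ℝ) (i : Fin 4) (y : Euc4) : ℝ := |ker h y| + h * |pd (ker h) i y|

theorem cc_comKer (hh : 0 < h) (i : Fin 4) : Cc (comKer h i) :=
  (cs_ker hh).cc.abs.add (Cc.mul continuous_const ((cs_ker hh).pd i).cc.abs)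

theorem comKer_nonneg (hh : 0 < h) (i : Fin 4) (y : Euc4) : 0 ≤ comKer h i y := by
  unfold comKer; positivity

theorem integral_comKer_le (hh : 0 < h) (i : Fin 4) : ∫ y, |comKer h i y| ≤ 1 + kerC := by
  simp_rw [abs_of_nonneg (comKer_nonneg hh i _)]
  unfold comKer
  rw [integral_add (cs_ker hh).cc.abs.integrable
    (((cs_ker hh).pd i).cc.abs.integrable.const_mul h), integral_const_mul, integral_abs_ker hh]
  linarith [integral_abs_pd_ker hh i]

/-- The pointwise commutator bound. -/
theorem abs_comm_le (hh : 0 < h) {a f : Euc4 → ℝ} (ha : Cs a) (hf : Cs f) {A : NNReal}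
    (hA : LipschitzWith A a) (i j : Fin 4) (x : Euc4) :
    |comm h a i j f x| ≤ A * conv (comKer h i) (fun y => |pd f j y|) x := by
  have hk := cs_ker hh
  set F := fun y => pd f j y with hF
  have hFs : Cs F := hf.pd j
  have e1 : (fun y => a y * pd (conv (ker h) f) j y) = fun y => a y * conv (ker h) F y := by
    funext y; rw [pd_conv hk.cc hf]
  have e : comm h a i j f x = pd a i x * conv (ker h) F x +
      ∫ y, pd (ker h) i y * (a x - a (x - y)) * F (x - y) := by
    unfold comm
    rw [e1, Local.pd_mul (ha.differentiable x) ((cs_conv hk.cc hFs).differentiable x),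
      pd_conv hk.cc hFs, conv_pd hk hFs, conv_pd hk (Cs.mul ha.1 hFs)]
    simp only [conv_apply, add_sub_assoc]
    congr 1
    rw [← integral_const_mul, ← integral_sub
      ((integrable_shift (hk.pd i).cc hFs.1.continuous x).const_mul _)
      (integrable_shift (f := fun z => a z * F z) (hk.pd i).cc
        (ha.1.continuous.mul hFs.1.continuous) x)]
    exact integral_congr_ae (Filter.Eventually.of_forall fun y => by ring)
  have hpa : |pd a i x| ≤ A := by
    rw [← Real.norm_eq_abs, pd]
    refine (ContinuousLinearMap.le_opNorm _ _).trans ?_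
    rw [EuclideanSpace.single, PiLp.norm_single, norm_one, mul_one]
    exact norm_fderiv_le_of_lipschitz ℝ hA
  have hb : |∫ y, pd (ker h) i y * (a x - a (x - y)) * F (x - y)| ≤
      A * conv (fun y => h * |pd (ker h) i y|) (fun y => |F y|) x := by
    rw [conv_apply, ← integral_const_mul]
    refine abs_integral_le_integral_abs.trans (integral_mono ?_ ?_ fun y => ?_)
    · exact ((((hk.pd i).1.continuous.mul (continuous_const.sub (ha.1.continuous.comp
        (continuous_const.sub continuous_id)))).mul (hFs.1.continuous.comp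
        (continuous_const.sub continuous_id))).abs).integrable_of_hasCompactSupport
        ((hk.pd i).2.mul_right.mul_right.comp_left (g := fun t => |t|) abs_zero)
    · exact (integrable_shift (Cc.mul continuous_const (hk.pd i).cc.abs) hFs.1.continuous.abs
        x).const_mul _
    · simp only [abs_mul]
      rcases le_or_gt ‖y‖ h with hy | hy
      · have : |a x - a (x - y)| ≤ A * h := by
          have h1 := hA.dist_le_mul x (x - y)
          rw [Real.dist_eq, dist_eq_norm, sub_sub_cancel] at h1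
          exact h1.trans (mul_le_mul_of_nonneg_left hy A.2)
        calc |pd (ker h) i y| * |a x - a (x - y)| * |F (x - y)|
            ≤ |pd (ker h) i y| * (A * h) * |F (x - y)| := by gcongr
          _ = _ := by ring
      · simp [pd_ker_eq_zero hh i hy]
  rw [e]
  refine (abs_add_le _ _).trans ?_
  rw [abs_mul]
  have h1 : |conv (ker h) F x| ≤ conv (fun y => |ker h y|) (fun y => |F y|) x := abs_conv_le x
  have h2 : conv (comKer h i) (fun y => |F y|) x = conv (fun y => |ker h y|) (fun y => |F y|) x +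
      conv (fun y => h * |pd (ker h) i y|) (fun y => |F y|) x := by
    simp only [conv_apply, comKer, add_mul]
    exact integral_add (integrable_shift hk.cc.abs hFs.1.continuous.abs x)
      (integrable_shift (Cc.mul continuous_const (hk.pd i).cc.abs) hFs.1.continuous.abs x)
  rw [h2, mul_add]
  exact add_le_add (mul_le_mul hpa h1 (abs_nonneg _) A.2) hb

theorem cs_comm (hh : 0 < h) {a f : Euc4 → ℝ} (ha : Cs a) (hf : Cs f) (i j : Fin 4) :
    Cs (comm h a i j f) :=
  ((Cs.mul ha.1 ((cs_conv (cs_ker hh).cc hf).pd j)).pd i).sub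
    (cs_conv (cs_ker hh).cc ((Cs.mul ha.1 (hf.pd j)).pd i))

theorem integral_comm_sq_le (hh : 0 < h) {a f : Euc4 → ℝ} (ha : Cs a) (hf : Cs f) {A : NNReal}
    (hA : LipschitzWith A a) (i j : Fin 4) :
    ∫ x, comm h a i j f x ^ 2 ≤ (A * (1 + kerC)) ^ 2 * ∫ x, pd f j x ^ 2 := by
  have hP := cc_comKer hh i
  have hF := (hf.pd j).cc.abs
  calc ∫ x, comm h a i j f x ^ 2
      ≤ ∫ x, (A : ℝ) ^ 2 * conv (comKer h i) (fun y => |pd f j y|) x ^ 2 :=
        integral_mono (cs_comm hh ha hf i j).cc.sq.integrable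
          ((cc_conv hP hF).sq.integrable.const_mul _) fun x => by
            rw [← sq_abs, ← mul_pow]
            exact pow_le_pow_left₀ (abs_nonneg _) (abs_comm_le hh ha hf hA i j x) 2
    _ = (A : ℝ) ^ 2 * ∫ x, conv (comKer h i) (fun y => |pd f j y|) x ^ 2 := integral_const_mul _ _
    _ ≤ (A : ℝ) ^ 2 * ((1 + kerC) ^ 2 * ∫ x, pd f j x ^ 2) := by
        refine mul_le_mul_of_nonneg_left ((integral_conv_sq_le hP hF).trans ?_) (sq_nonneg _)
        simp_rw [sq_abs]
        gcongr
        exact integral_comKer_le hh i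
    _ = _ := by ring

/-- For one smooth function the commutator tends to zero uniformly. -/
theorem comm_tendsto {a f : Euc4 → ℝ} (ha : Cs a) (hf : Cs f) (i j : Fin 4) {ε : ℝ}
    (hε : 0 < ε) : ∃ h₀ > 0, ∀ h, 0 < h → h < h₀ → ∀ x, |comm h a i j f x| ≤ ε := by
  have hF := hf.pd j
  obtain ⟨M1, hM1⟩ := (ha.pd i).2.exists_bound_of_continuous (ha.pd i).1.continuous
  obtain ⟨M2, hM2⟩ := ha.2.exists_bound_of_continuous ha.1.continuous
  have m1 : 0 ≤ M1 := (norm_nonneg _).trans (hM1 0)
  have m2 : 0 ≤ M2 := (norm_nonneg _).trans (hM2 0)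
  set δ := ε / (M1 + M2 + 1) with hδ
  have hδ0 : 0 < δ := by positivity
  obtain ⟨u, hu, Hu⟩ := conv_ker_tendsto hF.cc hδ0
  obtain ⟨v, hv, Hv⟩ := conv_ker_tendsto (hF.pd i).cc hδ0
  obtain ⟨w, hw, Hw⟩ := conv_ker_tendsto ((Cs.mul ha.1 hF).pd i).cc hδ0
  refine ⟨min u (min v w), lt_min hu (lt_min hv hw), fun h hh hlt x => ?_⟩
  obtain ⟨l1, l2, l3⟩ : h < u ∧ h < v ∧ h < w := by simpa using hlt
  have hk := cs_ker hh
  have e1 : (fun y => a y * pd (conv (ker h) f) j y) =
      fun y => a y * conv (ker h) (fun z => pd f j z) y := by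
    funext y; rw [pd_conv hk.cc hf]
  have r1 := Hu h hh l1 x
  have r2 := Hv h hh l2 x
  have r3 := Hw h hh l3 x
  simp only [Local.pd_mul (ha.differentiable x) (hF.differentiable x)] at r3
  unfold comm
  rw [e1, Local.pd_mul (ha.differentiable x) ((cs_conv hk.cc hF).differentiable x),
    pd_conv hk.cc hF]
  set p := conv (ker h) (fun z => pd f j z) x
  set q := conv (ker h) (fun y => pd (fun z => pd f j z) i y) x
  set s := conv (ker h) (fun y => pd (fun z => a z * pd f j z) i y) x
  set p0 := pd f j x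
  set q0 := pd (fun z => pd f j z) i x
  have b1 : |pd a i x * (p - p0)| ≤ M1 * δ := by
    rw [abs_mul]; exact mul_le_mul (hM1 x) r1 (abs_nonneg _) m1
  have b2 : |a x * (q - q0)| ≤ M2 * δ := by
    rw [abs_mul]; exact mul_le_mul (hM2 x) r2 (abs_nonneg _) m2
  have hs : (M1 + M2 + 1) * δ = ε := by rw [hδ]; field_simp
  have := abs_le.1 b1; have := abs_le.1 b2; have := abs_le.1 r3
  exact abs_le.2 ⟨by nlinarith, by nlinarith⟩

end

end Vale.Agent.P211.Mollify
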