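import Vale.Agent.P211.Analytic.Mollify.Kernel

/-!
# P211, module B: from weak residuals to strong ones, in a chart
-/

open MeasureTheory Metric Function
open scoped ContDiff

namespace Vale.Agent.P211.Mollify

noncomputable section

/-- The divergence form operator with coefficients `a`. -/
def dv (a : Fin 4 → Fin 4 → Euc4 → ℝ) (f : Euc4 → ℝ) (x : Euc4) : ℝ :=
  ∑ i, ∑ j, pd (fun y => a i j y * pd f j y) i x

theorem setIntegral_sq_le {F : Euc4 → ℝ} (hF : Continuous F) {K : Set Euc4} (hK : IsCompact K)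
    {δ : ℝ} (hδ : ∀ x ∈ K, |F x| ≤ δ) : ∫ x in K, F x ^ 2 ≤ volume.real K * δ ^ 2 := by
  refine (setIntegral_mono_on (f := fun x => F x ^ 2) (g := fun _ => δ ^ 2)
    ((hF.pow 2).continuousOn.integrableOn_compact hK)
    (integrableOn_const hK.measure_lt_top.ne) hK.measurableSet fun x hx => ?_).trans_eq
    (by rw [setIntegral_const, smul_eq_mul])
  rw [← sq_abs]
  exact pow_le_pow_left₀ (abs_nonneg _) (hδ x hx) 2

theorem setIntegral_le_all {F : Euc4 → ℝ} (hF : Cc F) (K : Set Euc4) :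
    ∫ x in K, F x ^ 2 ≤ ∫ x, F x ^ 2 :=
  setIntegral_le_integral hF.sq.integrable (Filter.Eventually.of_forall fun _ => sq_nonneg _)

/-- Smoothing is uniformly good along a sequence which is Cauchy in mean square. -/
theorem conv_ker_cauchy {F : ℕ → Euc4 → ℝ} (hF : ∀ m, Cc (F m))
    (hC : ∀ ε > 0, ∃ N, ∀ m ≥ N, ∀ n ≥ N, ∫ x, (F m x - F n x) ^ 2 < ε) {ε : ℝ} (hε : 0 < ε) :
    ∃ h₀ > 0, ∃ N, ∀ h, 0 < h → h < h₀ → ∀ m ≥ N,
      ∫ x, (conv (ker h) (F m) x - F m x) ^ 2 < ε := by
  obtain ⟨N, hN⟩ := hC (ε / 16) (by linarith)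
  set T := cthickening 1 (tsupport (F N)) with hT
  have hTc : IsCompact T := (hF N).2.cthickening
  set δ := √(ε / (8 * (volume.real T + 1))) with hδ
  have hv : 0 ≤ volume.real T := measureReal_nonneg
  have hδ0 : 0 < δ := Real.sqrt_pos.2 (by positivity)
  obtain ⟨h₁, hh₁, H⟩ := conv_ker_tendsto (hF N) hδ0
  refine ⟨min 1 h₁, lt_min one_pos hh₁, N, fun h hh hlt m hm => ?_⟩
  have hk := (cs_ker hh).cc
  have hout : ∀ x, x ∉ T → conv (ker h) (F N) x - F N x = 0 := by
    intro x hx
    have hz : ∀ y ∈ ball x h, F N y = 0 := fun y hy => by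
      by_contra hne
      refine hx (mem_cthickening_of_dist_le x y 1 _ (subset_tsupport _ hne) ?_)
      rw [dist_comm]; exact ((mem_ball.1 hy).trans (hlt.trans_le (min_le_left _ _))).le
    have := conv_ker_sub_le hh (hF N).1 (c := 0) (x := x) le_rfl fun y hy => by simp [hz y hy]
    rw [hz x (mem_ball_self hh), sub_zero]
    simpa using this
  have h0 : ∫ x, (conv (ker h) (F N) x - F N x) ^ 2 ≤ ε / 8 := by
    rw [← setIntegral_eq_integral_of_forall_compl_eq_zero (s := T)
      (f := fun x => (conv (ker h) (F N) x - F N x) ^ 2) fun x hx => by simp [hout x hx]]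
    refine (setIntegral_sq_le ((cc_conv hk (hF N)).sub (hF N)).1 hTc fun x _ =>
      H h hh (hlt.trans_le (min_le_right _ _)) x).trans ?_
    rw [hδ, Real.sq_sqrt (by positivity), mul_div, div_le_div_iff₀ (by positivity) (by norm_num)]
    nlinarith
  have hd := (hF m).sub (hF N)
  have hp : ∀ x, (conv (ker h) (F m) x - F m x) ^ 2 ≤
      4 * conv (ker h) (fun y => F m y - F N y) x ^ 2 + (4 * (F m x - F N x) ^ 2 +
        2 * (conv (ker h) (F N) x - F N x) ^ 2) := by
    intro x
    rw [conv_sub hk (hF m).1 (hF N).1]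
    nlinarith [sq_nonneg (conv (ker h) (F m) x - conv (ker h) (F N) x + (F m x - F N x)),
      sq_nonneg (conv (ker h) (F m) x - conv (ker h) (F N) x - (F m x - F N x) -
        (conv (ker h) (F N) x - F N x))]
  have i1 := (cc_conv hk hd).sq.integrable.const_mul 4
  have i2 := hd.sq.integrable.const_mul 4
  have i3 := ((cc_conv hk (hF N)).sub (hF N)).sq.integrable.const_mul 2
  refine lt_of_le_of_lt (integral_mono ((cc_conv hk (hF m)).sub (hF m)).sq.integrable
    (i1.add (i2.add i3)) hp) ?_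
  have hy := integral_conv_sq_le hk hd
  rw [integral_abs_ker hh, one_pow, one_mul] at hy
  have i23 : Integrable fun x => 4 * (F m x - F N x) ^ 2 +
      2 * (conv (ker h) (F N) x - F N x) ^ 2 := i2.add i3
  simp only [Pi.add_apply] at *
  rw [integral_add i1 i23, integral_add i2 i3, integral_const_mul, integral_const_mul,
    integral_const_mul]
  linarith [hN m hm N le_rfl]

/-- The commutator is uniformly small along a sequence with Cauchy gradients. -/
theorem comm_cauchy {a : Euc4 → ℝ} (ha : Cs a) {f : ℕ → Euc4 → ℝ} (hf : ∀ m, Cs (f m))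
    (i j : Fin 4)
    (hC : ∀ ε > 0, ∃ N, ∀ m ≥ N, ∀ n ≥ N, ∫ x, (pd (f m) j x - pd (f n) j x) ^ 2 < ε)
    {K : Set Euc4} (hK : IsCompact K) {ε : ℝ} (hε : 0 < ε) :
    ∃ h₀ > 0, ∃ N, ∀ h, 0 < h → h < h₀ → ∀ m ≥ N, ∫ x in K, comm h a i j (f m) x ^ 2 < ε := by
  obtain ⟨A, hA⟩ := ContDiff.lipschitzWith_of_hasCompactSupport ha.2 ha.1 (by simp)
  set B := ((A : ℝ) * (1 + kerC)) ^ 2 with hB
  have hB0 : 0 ≤ B := sq_nonneg _
  obtain ⟨N, hN⟩ := hC (ε / (8 * (B + 1))) (by positivity)
  set δ := √(ε / (8 * (volume.real K + 1))) with hδ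
  have hv : 0 ≤ volume.real K := measureReal_nonneg
  obtain ⟨h₁, hh₁, H⟩ := comm_tendsto ha (hf N) i j (Real.sqrt_pos.2 (by positivity) : 0 < δ)
  refine ⟨h₁, hh₁, N, fun h hh hlt m hm => ?_⟩
  have h0 : ∫ x in K, comm h a i j (f N) x ^ 2 ≤ ε / 8 := by
    refine (setIntegral_sq_le (cs_comm hh ha (hf N) i j).1.continuous hK fun x _ =>
      H h hh hlt x).trans ?_
    rw [Real.sq_sqrt (by positivity), mul_div, div_le_div_iff₀ (by positivity) (by norm_num)]
    nlinarith
  have hd := (hf m).sub (hf N)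
  have hy := integral_comm_sq_le hh ha hd hA i j
  have e : ∀ x, pd (fun y => f m y - f N y) j x = pd (f m) j x - pd (f N) j x := fun x =>
    Local.pd_sub ((hf m).differentiable x) ((hf N).differentiable x) j
  simp_rw [e] at hy
  rw [← hB] at hy
  have hc : ∀ g, Cs g → Cc (comm h a i j g) := fun g hg => (cs_comm hh ha hg i j).cc
  have i1 := ((hc _ hd).sq.integrable.const_mul 2).integrableOn (s := K)
  have i2 := ((hc _ (hf N)).sq.integrable.const_mul 2).integrableOn (s := K)
  refine lt_of_le_of_lt (setIntegral_mono (hc _ (hf m)).sq.integrable.integrableOn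
    (i1.add i2) fun x => ?_) ?_
  · simp only [Pi.add_apply, comm_sub hh ha (hf m) (hf N)]
    nlinarith [sq_nonneg (comm h a i j (f m) x - 2 * comm h a i j (f N) x)]
  · simp only [Pi.add_apply]
    rw [integral_add i1 i2, integral_const_mul, integral_const_mul]
    have h1 := setIntegral_le_all (hc _ hd) K
    have h2 : B * (∫ x, (pd (f m) j x - pd (f N) j x) ^ 2) ≤ B * (ε / (8 * (B + 1))) :=
      mul_le_mul_of_nonneg_left (hN m hm N le_rfl).le hB0
    have h3 : B * (ε / (8 * (B + 1))) ≤ ε / 8 := by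
      rw [mul_div, div_le_div_iff₀ (by positivity) (by norm_num)]; nlinarith
    linarith

/-- The energy of the kernel at scale `h`. -/
def kerEnergy (h : ℝ) : ℝ := ∫ y, (ker h y ^ 2 + ∑ i, pd (ker h) i y ^ 2)

/-- Smoothing turns a weak residual into a uniform one. -/
theorem abs_conv_residual_le {a : Fin 4 → Fin 4 → Euc4 → ℝ} (ha : ∀ i j, Cs (a i j))
    {f g : Euc4 → ℝ} (hf : Cs f) (hg : Cc g) {O : Set Euc4} {e : ℝ}
    (hres : ∀ φ, Cs φ → tsupport φ ⊆ O →
      |∫ y, ((∑ i, ∑ j, a i j y * pd f j y * pd φ i y) + g y * φ y)| ≤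
        e * √(∫ y, (φ y ^ 2 + ∑ i, pd φ i y ^ 2)))
    {h : ℝ} (hh : 0 < h) {x : Euc4} (hx : closedBall x h ⊆ O) :
    |conv (ker h) (dv a f) x - conv (ker h) g x| ≤ e * √(kerEnergy h) := by
  have hk := cs_ker hh
  set φ := fun y => ker h (x - y) with hφ
  have hpd : ∀ i y, pd φ i y = -pd (ker h) i (x - y) := fun i y => by
    simp only [pd, hφ]
    rw [show (fun y => ker h (x - y)) = ker h ∘ HSub.hSub x from rfl,
      (((hk.differentiable (x - y)).hasFDerivAt).comp y
      ((hasFDerivAt_id y).const_sub x)).fderiv]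
    simp
  have hcs : Cs φ := ⟨hk.1.comp (contDiff_const.sub contDiff_id),
    hk.2.comp_homeomorph (Homeomorph.subLeft x)⟩
  have hts : tsupport φ ⊆ O := by
    refine (closure_minimal (fun y hy => ?_) isClosed_closedBall).trans hx
    have := support_ker hh (show x - y ∈ support (ker h) from hy)
    rw [mem_ball_zero_iff] at this
    rw [mem_closedBall, dist_eq_norm, norm_sub_rev]; exact this.le
  have hF : ∀ i j, Cs fun y => a i j y * pd f j y := fun i j => Cs.mul (ha i j).1 (hf.pd j)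
  have hI : ∀ i j, Integrable fun y => a i j y * pd f j y * pd φ i y := fun i j =>
    (Cc.mul ((hF i j).1.continuous) (hcs.pd i).cc).integrable
  have e1 : conv (ker h) (dv a f) x - conv (ker h) g x =
      -∫ y, ((∑ i, ∑ j, a i j y * pd f j y * pd φ i y) + g y * φ y) := by
    have hdv : conv (ker h) (dv a f) x = ∑ i, ∑ j,
        conv (fun y => pd (ker h) i y) (fun y => a i j y * pd f j y) x := by
      unfold dv
      rw [conv_sum _ hk.cc fun i _ => continuous_finsetSum _ fun j _ =>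
        ((hF i j).pd i).1.continuous]
      refine Finset.sum_congr rfl fun i _ => ?_
      rw [conv_sum _ hk.cc fun j _ => ((hF i j).pd i).1.continuous]
      exact Finset.sum_congr rfl fun j _ => conv_pd hk (hF i j) i x
    rw [hdv, integral_add (integrable_finsetSum _ fun i _ => integrable_finsetSum _ fun j _ =>
      hI i j) (Cc.mul hg.1 hcs.cc).integrable, integral_finsetSum _ fun i _ =>
      integrable_finsetSum _ fun j _ => hI i j, neg_add, ← Finset.sum_neg_distrib, sub_eq_add_neg]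
    congr 1
    · refine Finset.sum_congr rfl fun i _ => ?_
      rw [integral_finsetSum _ fun j _ => hI i j, ← Finset.sum_neg_distrib]
      refine Finset.sum_congr rfl fun j _ => ?_
      rw [conv_apply_swap, ← integral_neg]
      exact integral_congr_ae (Filter.Eventually.of_forall fun y => by simp only [hpd]; ring)
    · rw [conv_apply_swap]
      congr 1
      exact integral_congr_ae (Filter.Eventually.of_forall fun y => mul_comm _ _)
  have e2 : ∫ y, (φ y ^ 2 + ∑ i, pd φ i y ^ 2) = kerEnergy h := by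
    have hy : (fun y => φ y ^ 2 + ∑ i, pd φ i y ^ 2) = fun y =>
        ker h (x - y) ^ 2 + ∑ i, pd (ker h) i (x - y) ^ 2 := by
      funext y; simp only [hpd, neg_sq]; rfl
    rw [hy]
    exact integral_sub_left_eq_self (fun y => ker h y ^ 2 + ∑ i, pd (ker h) i y ^ 2) volume x
  rw [e1, abs_neg, ← e2]
  exact hres φ hcs hts

theorem sq_sum_le {ι : Type*} (s : Finset ι) (v : ι → ℝ) :
    (∑ t ∈ s, v t) ^ 2 ≤ s.card * ∑ t ∈ s, v t ^ 2 := sq_sum_le_card_mul_sum_sq

/-- In a chart: a sequence with Cauchy energy and weak residuals tending to zero has smoothings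
with small residual in mean square. -/
theorem exists_smoothing {a : Fin 4 → Fin 4 → Euc4 → ℝ} (ha : ∀ i j, Cs (a i j))
    {K O : Set Euc4} (hK : IsCompact K) (hO : IsOpen O) (hKO : K ⊆ O)
    {f g : ℕ → Euc4 → ℝ} (hf : ∀ m, Cs (f m)) (hg : ∀ m, Cc (g m))
    (hC0 : ∀ ε > 0, ∃ N, ∀ m ≥ N, ∀ n ≥ N, ∫ x, (f m x - f n x) ^ 2 < ε)
    (hC1 : ∀ ε > 0, ∃ N, ∀ m ≥ N, ∀ n ≥ N, ∀ i, ∫ x, (pd (f m) i x - pd (f n) i x) ^ 2 < ε)
    (hC2 : ∀ ε > 0, ∃ N, ∀ m ≥ N, ∀ n ≥ N, ∫ x, (g m x - g n x) ^ 2 < ε)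
    {e : ℕ → ℝ} (he : Filter.Tendsto e Filter.atTop (nhds 0))
    (hres : ∀ m φ, Cs φ → tsupport φ ⊆ O →
      |∫ y, ((∑ i, ∑ j, a i j y * pd (f m) j y * pd φ i y) + g m y * φ y)| ≤
        e m * √(∫ y, (φ y ^ 2 + ∑ i, pd φ i y ^ 2)))
    {ε : ℝ} (hε : 0 < ε) :
    ∃ h₀ > 0, ∀ h, 0 < h → h < h₀ → ∃ N, ∀ m ≥ N,
      ∫ x, (conv (ker h) (f m) x - f m x) ^ 2 < ε ∧
      (∀ i, ∫ x, (pd (conv (ker h) (f m)) i x - pd (f m) i x) ^ 2 < ε) ∧
      ∫ x in K, (dv a (conv (ker h) (f m)) x - g m x) ^ 2 < ε := by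
  obtain ⟨u0, hu0, N0, H0⟩ := conv_ker_cauchy (fun m => (hf m).cc) hC0 hε
  choose u1 hu1 N1 H1 using fun i => conv_ker_cauchy (F := fun m y => pd (f m) i y)
    (fun m => ((hf m).pd i).cc)
    (fun δ hδ => (hC1 δ hδ).imp fun N hN m hm n hn => hN m hm n hn i) hε
  obtain ⟨u2, hu2, N2, H2⟩ := conv_ker_cauchy hg hC2 (show 0 < ε / 9 by linarith)
  choose u3 hu3 N3 H3 using fun p : Fin 4 × Fin 4 => comm_cauchy (ha p.1 p.2) hf p.1 p.2
    (fun δ hδ => (hC1 δ hδ).imp fun N hN m hm n hn => hN m hm n hn p.2) hK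
    (show 0 < ε / (256 * 9) by linarith)
  obtain ⟨u4, hu4, hcth⟩ := hK.exists_cthickening_subset_open hO hKO
  set U := min (min u0 (min u2 u4)) (min (Finset.univ.inf' ⟨0, Finset.mem_univ _⟩ u1)
    (Finset.univ.inf' ⟨(0, 0), Finset.mem_univ _⟩ u3)) with hU
  have hU0 : 0 < U := lt_min (lt_min hu0 (lt_min hu2 hu4))
    (lt_min ((Finset.lt_inf'_iff _).2 fun i _ => hu1 i) ((Finset.lt_inf'_iff _).2 fun p _ => hu3 p))
  refine ⟨U, hU0, fun h hh hlt => ?_⟩
  simp only [hU, lt_min_iff] at hlt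
  obtain ⟨⟨l0, l2, l4⟩, l1', l3'⟩ := hlt
  have l1 : ∀ i, h < u1 i := fun i => l1'.trans_le (Finset.inf'_le _ (Finset.mem_univ i))
  have l3 : ∀ p, h < u3 p := fun p => l3'.trans_le (Finset.inf'_le _ (Finset.mem_univ p))
  have hk := (cs_ker hh).cc
  have hev : ∀ᶠ m in Filter.atTop, volume.real K * (|e m| * √(kerEnergy h)) ^ 2 < ε / 9 := by
    have : Filter.Tendsto (fun m => volume.real K * (|e m| * √(kerEnergy h)) ^ 2) Filter.atTop
        (nhds 0) := by
      simpa using ((he.abs.mul_const (√(kerEnergy h))).pow 2).const_mul (volume.real K)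
    exact this.eventually_lt_const (by linarith)
  obtain ⟨N4, hN4⟩ := Filter.eventually_atTop.1 hev
  refine ⟨max (max N0 (max N2 N4)) (max (Finset.univ.sup N1) (Finset.univ.sup N3)),
    fun m hm => ?_⟩
  simp only [max_le_iff, ge_iff_le, Finset.sup_le_iff, Finset.mem_univ, forall_const] at hm
  obtain ⟨⟨m0, m2, m4⟩, m1, m3⟩ := hm
  refine ⟨H0 h hh l0 m m0, fun i => ?_, ?_⟩
  · have := H1 i h hh (l1 i) m (m1 i)
    simpa only [pd_conv hk (hf m)] using this
  set C := fun (p : Fin 4 × Fin 4) x => comm h (a p.1 p.2) p.1 p.2 (f m) x with hCdef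
  set R := fun x => conv (ker h) (dv a (f m)) x - conv (ker h) (g m) x
  set D := fun x => conv (ker h) (g m) x - g m x
  have hF : ∀ i j, Cs fun y => pd (fun z => a i j z * pd (f m) j z) i y := fun i j =>
    (Cs.mul (ha i j).1 ((hf m).pd j)).pd i
  have hsplit : ∀ x, dv a (conv (ker h) (f m)) x - g m x = (∑ p, C p x) + R x + D x := by
    intro x
    have : conv (ker h) (dv a (f m)) x = ∑ i, ∑ j,
        conv (ker h) (fun y => pd (fun z => a i j z * pd (f m) j z) i y) x := by
      unfold dv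
      rw [conv_sum _ hk fun i _ => continuous_finsetSum _ fun j _ => (hF i j).1.continuous]
      exact Finset.sum_congr rfl fun i _ => conv_sum _ hk (fun j _ => (hF i j).1.continuous) x
    simp only [C, R, D, comm, Fintype.sum_prod_type, Finset.sum_sub_distrib, this]
    simp only [dv]
    ring
  have hcC : ∀ p, Cc (C p) := fun p => (cs_comm hh (ha p.1 p.2) (hf m) p.1 p.2).cc
  have hdvc : Cc (dv a (f m)) := by
    refine ⟨continuous_finsetSum _ fun i _ => continuous_finsetSum _ fun j _ =>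
      (hF i j).1.continuous, ?_⟩
    refine HasCompactSupport.of_support_subset_isCompact
      (K := ⋃ i, ⋃ j, tsupport fun y => pd (fun z => a i j z * pd (f m) j z) i y)
      (isCompact_iUnion fun i => isCompact_iUnion fun j => (hF i j).2) fun x hx => ?_
    simp only [Set.mem_iUnion]
    by_contra hne
    push Not at hne
    exact hx (Finset.sum_eq_zero fun i _ => Finset.sum_eq_zero fun j _ =>
      image_eq_zero_of_notMem_tsupport (hne i j))
  have cR : Continuous R := (cc_conv hk hdvc).1.sub (cc_conv hk (hg m)).1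
  have cD : Cc D := (cc_conv hk (hg m)).sub (hg m)
  have hR : ∫ x in K, R x ^ 2 < ε / 9 := by
    refine lt_of_le_of_lt (setIntegral_sq_le cR hK fun x hx => ?_) (hN4 m m4)
    refine (abs_conv_residual_le ha (hf m) (hg m) (hres m) hh ?_).trans
      (mul_le_mul_of_nonneg_right (le_abs_self _) (Real.sqrt_nonneg _))
    exact (closedBall_subset_cthickening hx h).trans ((cthickening_mono l4.le K).trans hcth)
  have hS : ∫ x in K, (∑ p, C p x) ^ 2 ≤ ε / 9 := by
    have hi : ∀ p, IntegrableOn (fun x => C p x ^ 2) K := fun p => (hcC p).sq.integrable.integrableOn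
    calc ∫ x in K, (∑ p, C p x) ^ 2 ≤ ∫ x in K, 16 * ∑ p, C p x ^ 2 := by
          refine setIntegral_mono ?_ ((integrable_finsetSum _ fun p _ => hi p).const_mul _)
            fun x => (sq_sum_le _ _).trans (by simp)
          exact ((continuous_finsetSum _ fun p _ => (hcC p).1).pow 2).continuousOn
            |>.integrableOn_compact hK
      _ = 16 * ∑ p, ∫ x in K, C p x ^ 2 := by
          rw [integral_const_mul, integral_finsetSum _ fun p _ => hi p]
      _ ≤ 16 * ∑ _p : Fin 4 × Fin 4, ε / (256 * 9) := by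
          gcongr with p
          exact (H3 p h hh (l3 p) m (m3 p)).le
      _ = ε / 9 := by simp; ring
  have hD : ∫ x in K, D x ^ 2 < ε / 9 :=
    lt_of_le_of_lt (setIntegral_le_all cD K) (H2 h hh l2 m m2)
  have cS : Continuous fun x => ∑ p, C p x := continuous_finsetSum _ fun p _ => (hcC p).1
  have iS := ((cS.pow 2).continuousOn.integrableOn_compact (μ := volume) hK).const_mul 3
  have iR := ((cR.pow 2).continuousOn.integrableOn_compact (μ := volume) hK).const_mul 3
  have iD := ((cD.1.pow 2).continuousOn.integrableOn_compact (μ := volume) hK).const_mul 3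
  simp only [hsplit]
  refine lt_of_le_of_lt (setIntegral_mono (((cS.add cR).add cD.1).pow 2
    |>.continuousOn.integrableOn_compact hK) (iS.add (iR.add iD)) fun x => ?_) ?_
  · simp only [Pi.add_apply, Pi.pow_apply]
    nlinarith [sq_nonneg ((∑ p, C p x) - R x), sq_nonneg (R x - D x),
      sq_nonneg ((∑ p, C p x) - D x)]
  · simp only [Pi.add_apply, Pi.pow_apply] at *
    have iRD : IntegrableOn (fun x => 3 * R x ^ 2 + 3 * D x ^ 2) K := iR.add iD
    rw [integral_add iS iRD, integral_add iR iD, integral_const_mul, integral_const_mul,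
      integral_const_mul]
    linarith

end

end Vale.Agent.P211.Mollify
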